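import Vale.Agent.P352.BW.Lz

open MeasureTheory Filter Topology

namespace Vale.Agent.Results.P352.LightConeNet

open Vale.Agent.P352.GF Vale.Agent.P352.H246 Vale.Agent.P352.H496 Vale.Agent.P352.H15
open Vale.Agent.P352.N86 Vale.Agent.P352.NG Vale.Agent.P352.HM Vale.Agent.P352.BW
open UniformSpace (Completion)
open Vale.Agent.P352

/-- **Scale invariant local nets and the light cone.**

Let the smeared fields of the theory `Q`, whose vacuum is cyclic for the tensor fields, be affiliated
to the von Neumann algebras `𝒜 O` of a local net, covariant under the similitudes `U` (`LNm`).
Nothing is assumed about currents, about conformal transformations or about the domain `D` of the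
fields.

1. There are unitary groups `S a`, `a` null, that give, together with the boosts, the modular
unitaries of the algebras of the regions `Rg a b c`, and that satisfy, with all similitudes that
preserve the null plane `a·z = 0`, the relations of the special conformal transformations
`z ↦ (z - c (z·z) a) / (1 - 2c a·z)` (`Grp1`). The vectors `X Ω`, `X` affiliated to the algebra of a
region `Rg a b c`, `0 < c`, are in the domain of the generator of `S a`.

2. The modular unitaries of the algebra of the forward light cone `Fc` are the dilations (`LC`) if and
only if the vacuum is separating for this algebra (`SepF`) and the groups `S a` satisfy these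
relations with the translations off the null plane, too (`Law`). Then conjugation by the operators
`S a (-c)`, `0 < c`, maps the algebra of the light cone onto the algebras of its parts `2c a·z < 1`
(`GeoC`).

3. `Law` implies that tensor fields of ranks `k`, `k'` and dimensions `d`, `d'` are orthogonal in the
vacuum unless `d - k` and `d' - k'` differ by an even integer (`Orth`), that generators `G a` of the
groups `S a` from `D` to `D` (`Dif`) have the commutators of special conformal generators with the
generators of the similitudes (`ConfGen`), without any neutral charge, and that the vectors `X Ω`, `X`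
affiliated to the algebra of any bounded region, are in the domains of the generators. Conversely, `LC` holds if
the vacuum is separating for the algebra of the light cone, the tensor fields are orthogonal in this
sense, and the vacuum and the vectors that tensor fields with scaling dimensions generate from it are
total (`Tot1`).

4. `LC` holds if the algebras of opposite light cones commute, up to a unitary operator that
multiplies the vectors generated from the vacuum by each field of a generating class of fields with
real scaling dimensions by a phase (`Huy`; without this operator: Huygens' principle). -/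
theorem result {D : Type*} [NormedAddCommGroup D] [InnerProductSpace ℂ D] (Q : Theory D)
    (A : (V → V) → D → D) (hG : TfGen Q)
    (𝒜 : Set V → VonNeumannAlgebra (Completion D)) (h : LNm Q A 𝒜) :
    ∃ S : V → ℝ → Completion D →L[ℂ] Completion D, Grp1 Q 𝒜 S ∧
      (∀ a b c X, IsNull a → IsNull b → mdot a b = 1 → 0 < c → Aff (𝒜 (Rg a b c)) X →
        ∃ w, HasDerivAt (fun s : ℝ => S a s ((X Q.vac : D) : Completion D)) w 0) ∧
      (LC Q 𝒜 ↔ SepF Q 𝒜 ∧ Law Q S) ∧
      (Law Q S → Orth Q ∧ (∀ G, Dif S G → ConfGen Q A G) ∧
        ∀ a r O X, IsNull a → (∀ z ∈ O, ∀ m, |z m| ≤ r) → Aff (𝒜 O) X →
          ∃ w, HasDerivAt (fun s : ℝ => S a s ((X Q.vac : D) : Completion D)) w 0) ∧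
      (LC Q 𝒜 → GeoC 𝒜 S) ∧
      (SepF Q 𝒜 → Tot1 Q → Orth Q → LC Q 𝒜) ∧
      (Huy Q 𝒜 → LC Q 𝒜) :=
  main_lc hG h

end Vale.Agent.Results.P352.LightConeNet
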