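import Vale.Agent.P352.BW.Fz

open MeasureTheory Filter Topology

namespace Vale.Agent.Results.P352.ModularNet

open Vale.Agent.P352.GF Vale.Agent.P352.H246 Vale.Agent.P352.H496 Vale.Agent.P352.H15
open Vale.Agent.P352.N86 Vale.Agent.P352.NG Vale.Agent.P352.HM Vale.Agent.P352.BW
open Vale.Agent.P352.ND (PCh)
open UniformSpace (Completion)
open Vale.Agent.P352

/-- **Scale invariant theories of local nets.**

Let `T` be the stress tensor, whose charges on space-like hyperplanes are the generators `A X` of
the Poincaré transformations, and `J` a virial current of the theory `Q`, whose vacuum is cyclic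
for the tensor fields. Nothing is assumed about conformal transformations. Let the smeared fields be
affiliated to the von Neumann algebras `𝒜 O` of a local net, on the completion of the domain `D` of
the fields (`LNm`). For null vectors `a`, `b` with `a·b = 1` the region `Rg a b c`, `c ≥ 0`, is the
part of the wedge `a·z < 0 < b·z` that is cut off by the parabola `b·z = -c (z·z)` of its null
boundary `a·z = 0`.

1. There are unique unitary groups `S a`, `a` null, that transform like special conformal
transformations under the similitudes, map the algebras of the regions `Rg a b c` onto each other,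
and give, together with the boosts, the modular unitaries of these algebras. Their generators are
positive.

2. If the modular unitaries of the algebra of one region `Rg a b 1` map `D` into `D`, or if the
vectors of `D` are differentiable under them, with derivatives in `D`, then `Q` is conformally
invariant: a local scalar of dimension two improves `T` to a traceless stress tensor whose charges
act locally on all fields. The generators of the groups `S a` map `D` into `D` and are the special
conformal generators, up to a neutral charge that vanishes if the vacuum is cyclic for `T` and `J`;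
they act locally on `T` and `J`.

3. These conditions on the domain hold if and only if the groups `S a` map `D` into `D`, or have
generators from `D` to `D`. -/
theorem result {D : Type*} [NormedAddCommGroup D] [InnerProductSpace ℂ D] (Q : Theory D)
    (T : Ix → Ix → Fld D) (hT : Q.IsStress T) (J : Ix → Fld D) (hJ : IsVirial Q T J)
    (A : (V → V) → D → D) (hP : PCh Q T A) (hG : TfGen Q)
    (𝒜 : Set V → VonNeumannAlgebra (Completion D)) (h : LNm Q A 𝒜) :
    ∃ S : V → ℝ → Completion D →L[ℂ] Completion D, Grp0 Q 𝒜 S ∧
      (∀ S', Grp0 Q 𝒜 S' → ∀ a c, IsNull a → S' a c = S a c) ∧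
      (∀ a (z w : Completion D), IsNull a →
        HasDerivAt (fun c : ℝ => S a c z) (Complex.I • w) 0 → 0 ≤ (inner ℂ z w).re) ∧
      (Inv Q 𝒜 ∨ Smo Q 𝒜 → ConfInv Q T ∧ ∃ G : V → D → D, Dif S G ∧
        (∃ C : D → D, Neutral Q T J A C ∧ ConfC Q A G C) ∧ (∀ m n, LocF Q G (T m n)) ∧
        (∀ m, LocF Q G (J m)) ∧ (Cyc Q T J → ConfGen Q A G)) ∧
      (Inv Q 𝒜 ↔ ∀ a c (x : D), IsNull a → ∃ y : D, S a c (x : Completion D) = y) ∧
      (Smo Q 𝒜 ↔ ∃ G : V → D → D, Dif S G) :=
  main_z hT hJ hP hG h

end Vale.Agent.Results.P352.ModularNet
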