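import Vale.Agent.P352.NC.E13
import Vale.Agent.P352.NC.Main
import Vale.Agent.P352.MO.Main4

namespace Vale.Agent.Results.P352.NullChargesConformal

open Vale.Agent.P352.GF Vale.Agent.P352.H246 Vale.Agent.P352.H496 Vale.Agent.P352.H15
open Vale.Agent.P352.H755 Vale.Agent.P352.H846 Vale.Agent.P352.H121 Vale.Agent.P352.N86
open Vale.Agent.P352.ND Vale.Agent.P352.MS
open scoped SchwartzMap

/-- **Scale invariance implies conformal invariance, if the second moments of one null component
of the stress tensor exist.**

Let `T` be the stress tensor of the scale invariant theory `Q`. The charges of `T` are the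
generators `A X` of the Poincaré transformations: on space-like hyperplanes (`PCh`, as in the
definition of a stress tensor), or else on null hyperplanes (`NullP`). Suppose that, for one null
vector `a`, the second moments `- ∫ f (a·x) (x·x) T_aa(x) dx` of the null energy density `T_aa`
exist, as an operator valued tempered distribution `M` on the line (`OneMom`).

Then `Q` is conformally invariant: a local scalar field `L` of dimension two improves `T` to a
traceless stress tensor whose conformal charges act on all fields as infinitesimal conformal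
transformations. Moreover, the charges of `T_aa` on null hyperplanes are generators of the Poincaré
transformations and the second moments `K a` on single hyperplanes exist for all null `a` (`NullK`,
an equivalent condition). If the vacuum is cyclic for the tensor fields, then the second moment on
the hyperplane `a·x = u` is `K a - 2 u A (fun z => z)`, with the generator `A (fun z => z)` of the
dilations, and the operators `K a` have the commutation relations of special conformal generators
with the similitudes.

If moreover the charges of the currents `X^n T_{mn} - r J_m` on null hyperplanes are the generators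
`A X` of all similitudes and there is no flux at infinity of the conformal current (`NullCharges`),
then the trace of `T` vanishes when it is integrated over null hyperplanes (the on-shell dilaton
constraint); the second moments are additive in `a` if there is no flux at infinity; and if the
vacuum is cyclic for the tensor fields, then `A X` and `K a` are charges of the improved tensor. -/
theorem result {D : Type*} [NormedAddCommGroup D] [InnerProductSpace ℂ D] (Q : Theory D)
    (T : Ix → Ix → Fld D) (hT : Q.IsStress T) (J : Ix → Fld D) (hJ : IsVirial Q T J)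
    (A : (V → V) → D → D) (hP : PCh Q T A ∨ NullP Q T A) :
    (∀ (a : V) (M : 𝓢(ℝ, ℂ) → D → D), OneMom Q T A a M → ConfInv Q T) ∧
    ((∃ (a : V) (M : 𝓢(ℝ, ℂ) → D → D), OneMom Q T A a M) ↔
      NullP Q T A ∧ ∃ K : V → D → D, NullK Q T A K) ∧
    ∀ K : V → D → D,
      (NullP Q T A → NullK Q T A K → TGen Q → ConfGen Q A K ∧
        ∀ (a : V) (M : 𝓢(ℝ, ℂ) → D → D), OneMom Q T A a M → ∀ (f : 𝓢(ℝ, ℂ)) v, M f v =
          (∫ u : ℝ, f u) • K a v - (2 * ∫ u : ℝ, (u : ℂ) * f u) • A (fun z => z) v) ∧
      (NullCharges Q T J A K → TrNull T ∧ (NoFlux T J → Vale.Agent.P352.H746.AddK K) ∧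
        (TGen Q → NoFlux T J → ∃ L : Fld D, ∀ Q₁ : Theory D, IsEnl Q Q₁ →
          ∃ Q₂ : Theory D, IsEnl Q₁ Q₂ ∧ Q₂.IsScalar L 2 ∧ Q₂.IsStress (improve T L) ∧
            IsImpr Q₂ T (improve T L) ∧ ConfAct Q₂ (improve T L) ∧
            (∀ r X, IsSim r X → Chg Q₂ (improve T L) X (A X)) ∧
            ∀ a, IsNull a → Chg Q₂ (improve T L) (cK a) (K a))) := by
  refine ⟨fun a M h => conf_one hT hJ hP h,
    ⟨fun ⟨a, M, h⟩ => ⟨nullP_of hT hP h, exists_nullK hT hJ hP h⟩, fun ⟨g, K, h⟩ => ?_⟩,
    fun K => ⟨fun g h hg => tgen_nullK hT hJ g h hg, fun hc => ?_⟩⟩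
  · have h1 : (1 : ℝ) * 1 = 1 := one_mul 1
    exact ⟨_, one_of_nullK hT hJ g h (Vale.Agent.P352.NF.nv_null (i := 1) (by decide) h1)⟩
  · have hm := Vale.Agent.P352.NC.main_of_tr hT hJ hc (Vale.Agent.P352.NC.trNull hT hJ hc)
    exact ⟨hm.1, hm.2.2.1, fun hg hf => (hm.2.2.2 hg).2 hf⟩

end Vale.Agent.Results.P352.NullChargesConformal
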