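import Vale.Agent.P352.N86.Form

open MeasureTheory Filter Topology

namespace Vale.Agent.Results.P352.WeakLocality

open Vale.Agent.P352.GF Vale.Agent.P352.H246 Vale.Agent.P352.H496 Vale.Agent.P352.H755
open Vale.Agent.P352.H15 Vale.Agent.P352.H121 Vale.Agent.P352.H746 Vale.Agent.P352.N86
open UniformSpace (Completion)

/-- **Weak locality of the vector potential of the trace decides between scale and conformal
invariance.**

Let `T` be the stress tensor and `J` a virial current of the theory `Q`, and let `l` be the unique
vector potential of the trace, `3 □ l = (tr T) Ω`. The potential `l` is weakly local if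
`⟨X* Ω, l(f)⟩ = ⟨l(bar f), X Ω⟩` for all polynomials `X` in the fields in the causal complement of
the support of the test function `f`.

(1) Weak locality holds if and only if `tr T = 3 □ Λ` for a local sesquilinear form `Λ`, which is
then unique, and it is necessary for any local scalar `L` of dimension two to improve `T` to a
traceless tensor.

(2) If the charges of `T` on null hyperplanes exist, weak locality holds if and only if `Q` is
conformally invariant.

(3) Weak locality holds if `l(0)` is invariant under null deformations of a net of local
algebras. -/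
theorem result {D : Type*} [NormedAddCommGroup D] [InnerProductSpace ℂ D] (Q : Theory D)
    (T : Ix → Ix → Fld D) (hT : Q.IsStress T) (J : Ix → Fld D) (hJ : IsVirial Q T J) :
    ∃ l : Fn → Completion D, IsPot Q T l ∧
      (∀ l', IsPot Q T l' → ∀ f, IsTest f → l' f = l f) ∧
      (WeakLoc Q l ↔ ∃ Λ, IsForm Q T l Λ) ∧
      (∀ Λ Λ', IsForm Q T l Λ → IsForm Q T l Λ' → ∀ f v w, In Set.univ f →
        Gen Q (cc (tsupport f)) v → Gen Q (cc (tsupport f)) w → Λ f v w = Λ' f v w) ∧
      ((∃ L, Improves Q T L) → WeakLoc Q l) ∧
      (∀ A K, NullCharges Q T J A K →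
        [WeakLoc Q l, ∃ Λ, IsForm Q T l Λ, TrNull T, ∃ L, Improves Q T L, ConfInv Q T].TFAE) ∧
      (∀ H alg S, Net Q H alg S → Inv S l → WeakLoc Q l) :=
  form_main hT hJ

end Vale.Agent.Results.P352.WeakLocality
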